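import Vale.Agent.P216.H311.Points
import Mathlib.Logic.Relation

/-!
# Chain contiguity

A cochain `f` on lists which is a cocycle on the `r`-small lists of `Y`, and a finite chain of
contiguous maps `F 0, F 1, .., F N : Zs → Y` with a modulus `δ`: then the pull-backs of `f` by
`F 0` and `F N` differ by a coboundary on the `δ`-small lists (`δ` does not depend on `N`).
-/

open Set

namespace Vale.Agent.P216.D907

open Sl PS

variable {k : Type} [Field k] {Y' Z : Type} [PseudoMetricSpace Y'] [PseudoMetricSpace Z]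

/-- One step of contiguity. -/
def Ctg (Y : Set Y') (Zs : Set Z) (δ r : ℝ) (f₀ f₁ : Z → Y') : Prop :=
  ∀ w ∈ Zs, f₀ w ∈ Y ∧ f₁ w ∈ Y ∧ ∀ w' ∈ Zs, dist w w' < δ →
    dist (f₀ w) (f₀ w') < r ∧ dist (f₁ w) (f₁ w') < r ∧ dist (f₀ w) (f₁ w') < r

variable {Y : Set Y'} {Zs : Set Z} {δ r : ℝ} {f₀ f₁ : Z → Y'} {n : ℕ} {f : List Y' → k}

theorem Ctg.symm (h : Ctg Y Zs δ r f₀ f₁) : Ctg Y Zs δ r f₁ f₀ := fun w hw =>
  ⟨(h w hw).2.1, (h w hw).1, fun w' hw' hd => ⟨((h w hw).2.2 w' hw' hd).2.1,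
    ((h w hw).2.2 w' hw' hd).1, by
      have := ((h w' hw').2.2 w hw (by rwa [dist_comm])).2.2
      rwa [dist_comm]⟩⟩

theorem Ctg.mono {Y₁ : Set Y'} {Z₁ : Set Z} {δ₁ r₁ : ℝ} (h : Ctg Y Zs δ r f₀ f₁) (hY : Y ⊆ Y₁)
    (hZ : Z₁ ⊆ Zs) (hδ : δ₁ ≤ δ) (hr : r ≤ r₁) : Ctg Y₁ Z₁ δ₁ r₁ f₀ f₁ := fun w hw =>
  ⟨hY (h w (hZ hw)).1, hY (h w (hZ hw)).2.1, fun w' hw' hd =>
    have := (h w (hZ hw)).2.2 w' (hZ hw') (hd.trans_le hδ)
    ⟨this.1.trans_le hr, this.2.1.trans_le hr, this.2.2.trans_le hr⟩⟩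

/-- The lists with entries in `f₀ l ∪ f₁ l` are `r`-small in `Y`. -/
theorem Ctg.small (h : Ctg Y Zs δ r f₀ f₁) {l : List Z} (hl : SmL Zs δ l) {l' : List Y'}
    (hl' : ∀ y ∈ l', ∃ x ∈ l, y = f₀ x ∨ y = f₁ x) : SmL Y r l' := by
  refine ⟨fun y hy => ?_, fun y hy y' hy' => ?_⟩
  · obtain ⟨x, hx, rfl | rfl⟩ := hl' y hy
    · exact (h x (hl.1 x hx)).1
    · exact (h x (hl.1 x hx)).2.1
  · obtain ⟨x, hx, hxy⟩ := hl' y hy
    obtain ⟨x', hx', hxy'⟩ := hl' y' hy'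
    have h1 := (h x (hl.1 x hx)).2.2 x' (hl.1 x' hx') (hl.2 x hx x' hx')
    have h2 := (h x' (hl.1 x' hx')).2.2 x (hl.1 x hx) (hl.2 x' hx' x hx)
    rcases hxy with rfl | rfl <;> rcases hxy' with rfl | rfl
    · exact h1.1
    · exact h1.2.2
    · rw [dist_comm]; exact h2.2.2
    · exact h1.2.1

omit [PseudoMetricSpace Y'] [PseudoMetricSpace Z] in
theorem prg_nil (f₀ f₁ : Z → Y') (f : List Y' → k) : prg f₀ f₁ f [] = 0 := by
  rw [prg, Sh_nil_left, map_zero, mul_zero]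

/-- One step. -/
theorem ctg_step (hf : ∀ l, l.length = n + 2 → SmL Y r l → dl f l = 0)
    (h : Ctg Y Zs δ r f₀ f₁) : ∃ g : List Z → k, (n = 0 → ∀ l, g l = 0) ∧
      ∀ l, l.length = n + 1 → SmL Zs δ l → f (l.map f₁) - f (l.map f₀) = dl g l := by
  have key : ∀ l, l.length = n + 1 → SmL Zs δ l →
      f (l.map f₁) - f (l.map f₀) = dl (prg f₀ f₁ f) l := fun l hl hs =>
    prg_spec f₀ f₁ f (by rintro rfl; simp at hl) fun l' h1 h2 =>
      hf l' (by omega) (h.small hs h2)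
  rcases Nat.eq_zero_or_pos n with rfl | hn
  · refine ⟨fun _ => 0, fun _ _ => rfl, fun l hl hs => ?_⟩
    rw [key l hl hs]
    obtain ⟨a, rfl⟩ : ∃ a, l = [a] := List.length_eq_one_iff.1 (by simpa using hl)
    have e : (bdL [a] : Ch k Z) = Finsupp.single [] 1 := by simp [bdL_cons, bdL_nil]
    rw [dl_zero_fun, dl, e, ev_single, prg_nil, mul_zero]
  · exact ⟨prg f₀ f₁ f, fun h => absurd h hn.ne', key⟩

/-- **Chain contiguity, relation version**: the modulus `δ` does not depend on the length of the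
chain. -/
theorem ctg_chain (hf : ∀ l, l.length = n + 2 → SmL Y r l → dl f l = 0)
    (h : Relation.ReflTransGen (Ctg Y Zs δ r) f₀ f₁) : ∃ g : List Z → k,
      (n = 0 → ∀ l, g l = 0) ∧
      ∀ l, l.length = n + 1 → SmL Zs δ l → f (l.map f₁) - f (l.map f₀) = dl g l := by
  induction h with
  | refl => exact ⟨fun _ => 0, fun _ _ => rfl, fun l _ _ => by rw [sub_self, dl_zero_fun]⟩
  | tail _ h ih =>
    obtain ⟨g, hg0, hg⟩ := ih
    obtain ⟨g', hg0', hg'⟩ := ctg_step hf h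
    refine ⟨fun l => g l + g' l, fun hn l => by
      simp only [hg0 hn, hg0' hn, add_zero],
      fun l hl hs => ?_⟩
    rw [dl_add, ← hg l hl hs, ← hg' l hl hs]
    ring

/-- **Chain contiguity.** -/
theorem chain_contig {N : ℕ} (F : ℕ → Z → Y') (hY : ∀ i ≤ N, MapsTo (F i) Zs Y)
    (hF : ∀ i ≤ N, ∀ w ∈ Zs, ∀ w' ∈ Zs, dist w w' < δ →
      dist (F i w) (F i w') < r ∧ (i < N → dist (F i w) (F (i + 1) w') < r))
    (hf : ∀ l, l.length = n + 2 → SmL Y r l → dl f l = 0) : ∃ g : List Z → k,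
      (n = 0 → ∀ l, g l = 0) ∧
      ∀ l, l.length = n + 1 → SmL Zs δ l → f (l.map (F N)) - f (l.map (F 0)) = dl g l := by
  have key : ∀ i ≤ N, Relation.ReflTransGen (Ctg Y Zs δ r) (F 0) (F i) := by
    intro i
    induction i with
    | zero => exact fun _ => Relation.ReflTransGen.refl
    | succ i ih =>
      intro hi
      refine (ih (by omega)).tail fun w hw => ⟨hY i (by omega) hw, hY (i + 1) hi hw,
        fun w' hw' hd => ⟨(hF i (by omega) w hw w' hw' hd).1,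
          (hF (i + 1) hi w hw w' hw' hd).1, (hF i (by omega) w hw w' hw' hd).2 (by omega)⟩⟩
  exact ctg_chain hf (key N le_rfl)

end Vale.Agent.P216.D907
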