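import Vale.Agent.P216.D246.Defs
import Mathlib.Topology.Algebra.Module.FiniteDimension
import Mathlib.Geometry.Manifold.ChartedSpace

/-!
# P216-D, block [CUB]: every point of a topological manifold is the centre of a closed cube
-/

open Set Metric

namespace Vale.Agent.P216.D907

open Vale.Agent.P216.D246

/-- A closed cube inside a chart. -/
theorem exists_cub {E : Type} [NormedAddCommGroup E] [NormedSpace ℝ E] [FiniteDimensional ℝ E]
    {M : Type} [TopologicalSpace M] [T2Space M] [ChartedSpace E M] {n : ℕ}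
    (L : E ≃L[ℝ] (Fin n → ℝ)) (x : M) : ∃ c : Cub M n, x ∈ c.D ∧ c.φ x = 0 := by
  set e := chartAt E x with he
  set p : Fin n → ℝ := L (e x) with hp
  have hxs : x ∈ e.source := mem_chart_source E x
  -- the open set in `Fin n → ℝ`
  have hop : IsOpen (L.symm ⁻¹' e.target) := e.open_target.preimage L.symm.continuous
  have hpm : p ∈ L.symm ⁻¹' e.target := by
    change L.symm (L (e x)) ∈ e.target
    rw [L.symm_apply_apply]
    exact e.map_source hxs
  obtain ⟨ε, hε, hball⟩ := Metric.isOpen_iff.1 hop p hpm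
  -- half the radius
  set r : ℝ := ε / 4 with hr
  have hr0 : 0 < r := by positivity
  have hr0' : r ≠ 0 := hr0.ne'
  have hin : ∀ y : Fin n → ℝ, ‖y‖ ≤ 2 → L.symm (p + r • y) ∈ e.target := by
    intro y hy
    apply hball
    rw [Metric.mem_ball, dist_eq_norm, add_sub_cancel_left, norm_smul, Real.norm_of_nonneg hr0.le]
    have : r * ‖y‖ ≤ r * 2 := mul_le_mul_of_nonneg_left hy hr0.le
    have h2 : r * 2 < ε := by rw [hr]; linarith
    exact this.trans_lt h2
  set φ : M → Fin n → ℝ := fun m => r⁻¹ • (L (e m) - p) with hφ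
  set ψ : (Fin n → ℝ) → M := fun y => e.symm (L.symm (p + r • y)) with hψ
  have hφψ : ∀ y, ‖y‖ ≤ 2 → φ (ψ y) = y := by
    intro y hy
    change r⁻¹ • (L (e (e.symm (L.symm (p + r • y)))) - p) = y
    rw [e.right_inv (hin y hy), L.apply_symm_apply, add_sub_cancel_left, smul_smul,
      inv_mul_cancel₀ hr0', one_smul]
  have hψφ : ∀ m ∈ e.source, ψ (φ m) = m := by
    intro m hm
    change e.symm (L.symm (p + r • r⁻¹ • (L (e m) - p))) = m
    rw [smul_smul, mul_inv_cancel₀ hr0', one_smul, add_sub_cancel, L.symm_apply_apply,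
      e.left_inv hm]
  have hψsrc : ∀ y, ‖y‖ ≤ 2 → ψ y ∈ e.source := fun y hy => e.map_target (hin y hy)
  have hψc : ContinuousOn ψ {y | ‖y‖ ≤ 2} := by
    refine e.continuousOn_symm.comp ?_ (fun y hy => hin y hy)
    fun_prop
  have hφc : ContinuousOn φ e.source := by
    have h1 : ContinuousOn (fun m => L (e m)) e.source :=
      L.continuous.comp_continuousOn e.continuousOn
    exact (h1.sub continuousOn_const).const_smul r⁻¹
  have hcl : {y : Fin n → ℝ | ‖y‖ ≤ 2} = closedBall 0 2 := by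
    ext y
    simp
  have hcpt : IsCompact {y : Fin n → ℝ | ‖y‖ ≤ 2} := by
    rw [hcl]
    exact isCompact_closedBall _ _
  have hDs : ψ '' {y | ‖y‖ ≤ 2} ⊆ e.source := by
    rintro _ ⟨y, hy, rfl⟩
    exact hψsrc y hy
  have hDmem : ∀ m, m ∈ ψ '' {y | ‖y‖ ≤ 2} ↔ m ∈ e.source ∧ ‖φ m‖ ≤ 2 := by
    intro m
    constructor
    · rintro ⟨y, hy, rfl⟩
      refine ⟨hψsrc y hy, ?_⟩
      rw [hφψ y hy]
      exact hy
    · rintro ⟨hm, hm2⟩
      exact ⟨φ m, hm2, hψφ m hm⟩
  have hx0 : φ x = 0 := by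
    change r⁻¹ • (L (e x) - p) = 0
    rw [← hp, sub_self, smul_zero]
  refine ⟨{ D := ψ '' {y | ‖y‖ ≤ 2}
            φ := φ
            ψ := ψ
            closed := (hcpt.image_of_continuousOn hψc).isClosed
            φ_cont := hφc.mono hDs
            φ_le := fun m hm => ((hDmem m).1 hm).2
            ψ_cont := hψc
            ψ_mem := fun y hy => ⟨y, hy, rfl⟩
            ψφ := fun m hm => hψφ m (hDs hm)
            φψ := hφψ
            open_int := ?_ }, ?_, hx0⟩
  · have h1 : {m | m ∈ ψ '' {y | ‖y‖ ≤ 2} ∧ ‖φ m‖ < 2} =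
        e.source ∩ φ ⁻¹' {y | ‖y‖ < 2} := by
      ext m
      rw [Set.mem_ofPred_eq, hDmem m]
      constructor
      · rintro ⟨⟨h1, _⟩, h2⟩
        exact ⟨h1, h2⟩
      · rintro ⟨h1, h2⟩
        exact ⟨⟨h1, le_of_lt h2⟩, h2⟩
    rw [h1]
    exact hφc.isOpen_inter_preimage e.open_source (isOpen_lt continuous_norm continuous_const)
  · change x ∈ ψ '' {y | ‖y‖ ≤ 2}
    rw [hDmem, hx0, norm_zero]
    exact ⟨hxs, by norm_num⟩

/-- Block [CUB]. -/
theorem cub : CubGoal := by
  intro E _ _ _ M _ _ _ x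
  have h : Module.finrank ℝ E = Module.finrank ℝ (Fin (Module.finrank ℝ E) → ℝ) := by simp
  exact exists_cub (ContinuousLinearEquiv.ofFinrankEq h) x

end Vale.Agent.P216.D907
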