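import Vale.Agent.P216.D907.PwH
import Vale.Agent.P216.H923E.Inst

/-!
# P216-D, [E2], fibre step, powers (3): the instance for the free loops

`uh_pw`: the hypothesis `hθ` of `H892.fib_of` for `θ s = pwr s m`.
-/

set_option linter.all false

open Set BoundedContinuousFunction

namespace Vale.Agent.P216.D907

open Vale.Agent.P216.PS Vale.Agent.P216.MV337 Vale.Agent.P216.C337 Vale.Agent.P216.H774D
open Vale.Agent.P216.H923E
open Vale.Agent.P216.H892 (nbc)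

variable {M : Type} [MetricSpace M] [CompactSpace M] {x₀ : M} {ρ R ℓ₀ D ℓ r0 : ℝ}
  {c : M → ℝ → M}

/-- `φ x ∘ (power) ~ (power) ∘ φ x`, uniformly in `x`. -/
theorem uh_pw (T : Tr0 x₀ ρ R ℓ₀ D ℓ r0 c) {m : ℕ} (hm : 1 ≤ m) {s : ℝ} (hs : 0 < s) :
    UH (fun x : M => nbc (fun w : ℝ →ᵇ M => w 0) (FL M s) x r0)
      (fun _ => P x₀ x₀ ((m:ℝ) * (s + (R + ℓ + (R + ℓ)))))
      (fun x w => phi (fun y => y) R ℓ c x ((m:ℝ) * s) (pwr s m w))
      (fun x w => pwr (s + (R + ℓ + (R + ℓ))) m (phi (fun y => y) R ℓ c x s w)) := by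
  have hn : ∀ x : M, ∀ w ∈ nbc (fun w : ℝ →ᵇ M => w 0) (FL M s) x r0, w 0 ∈ NB x r0 :=
    fun x w hw => hw.2
  have h := uh_pwr (M := M) (x₀ := x₀) (ℓ := R + ℓ) hs T.m_nonneg hm
    (Z := fun x : M => nbc (fun w : ℝ →ᵇ M => w 0) (FL M s) x r0) (fun x w hw => hw.1)
    (p := fun x w => pφ R c x (w 0)) (fun x w hw => by
      have h1 := T.pφ_pt le_rfl (hn x w hw)
      exact ⟨h1.1, h1.2.1, h1.2.2⟩) (fun ε hε => by
      obtain ⟨δ, hδ, h1⟩ := T.pφ_unif (half_pos hε)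
      refine ⟨δ, hδ, fun x w hw w' hw' hd u => ?_⟩
      refine (h1 x (w 0) (hn x w hw) (w' 0) (hn x w' hw')
        ((BoundedContinuousFunction.dist_coe_le_dist (f := w) (g := w') 0).trans_lt hd) u).trans_lt
        (half_lt_self hε))
  refine h.congr (fun x w hw => ?_) fun x w hw => rfl
  show cj (R + ℓ) (m * s) (pφ R c x (w 0)) (pwr s m w) =
    cg (fun y => y) (R + ℓ) (m * s) (pφ R c x (pwr s m w 0)) (pwr s m w)
  rw [eq_left (pwr_mem_P hs.le (mem_FL_iff.1 hw.1) m) le_rfl]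
  rfl

end Vale.Agent.P216.D907
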