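import Vale.Agent.P216.H774D.Pwr
import Vale.Agent.P216.H923E.UH

/-!
# P216-D, [E2], fibre step, powers (1): estimates

`cj ℓ T p W = mo (c2 ℓ T p p W)`: the conjugate `p⁻¹ W p` of a closed Moore path `W` of time `T`
along a track `p` of time `ℓ`.  All operations are nonexpanding in the paths and Lipschitz in the
times.
-/

set_option linter.all false

open Set BoundedContinuousFunction

namespace Vale.Agent.P216.D907

open Vale.Agent.P216.PS Vale.Agent.P216.MV337 Vale.Agent.P216.C337 Vale.Agent.P216.H774D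

variable {M : Type} [MetricSpace M] [CompactSpace M]
  {a b x₀ : M} {t t' T T' ℓ C : ℝ} {w w' v v' W W' : ℝ →ᵇ M} {p p' q : ℝ → M}

theorem dist_mo_mo_le {f g : ℝ → M} (hf : Lip f) (hg : Lip g) (hC : 0 ≤ C)
    (h : ∀ u, dist (f u) (g u) ≤ C) : dist (mo f) (mo g) ≤ C := by
  rw [BoundedContinuousFunction.dist_le hC]
  intro u
  rw [hf.mo_apply, hg.mo_apply]
  exact h u

theorem cat_aux (hTT : T ≤ T') (hw : Lip w) (hw' : Lip w') (hv : Lip v) (hv' : Lip v')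
    (h : w T = v 0) (h' : w' T' = v' 0) (hC : 0 ≤ C) (h1 : dist w w' ≤ C) (h2 : dist v v' ≤ C)
    (u : ℝ) : dist (cat T w v u) (cat T' w' v' u) ≤ T' - T + C := by
  rw [cat_apply hw hv h, cat_apply hw' hv' h']
  have e0 : 0 ≤ T' - T := by linarith
  rcases le_total u T with hu | hu
  · rw [catf_left hu, catf_left (hu.trans hTT)]
    linarith [(BoundedContinuousFunction.dist_coe_le_dist (f := w) (g := w') u)]
  rcases le_total T' u with hu' | hu'
  · rw [catf_right h hu, catf_right h' hu']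
    have e1 := hv (u - T) (u - T')
    rw [show u - T - (u - T') = T' - T by ring, abs_of_nonneg e0] at e1
    have e2 := BoundedContinuousFunction.dist_coe_le_dist (f := v) (g := v') (u - T')
    linarith [dist_triangle (v (u - T)) (v (u - T')) (v' (u - T'))]
  · rw [catf_right h hu, catf_left hu']
    have e1 := hv (u - T) 0
    rw [sub_zero, abs_of_nonneg (by linarith)] at e1
    have e2 := BoundedContinuousFunction.dist_coe_le_dist (f := v) (g := v') 0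
    have e3 := hw' T' u
    rw [abs_of_nonneg (by linarith), h'] at e3
    linarith [dist_triangle4 (v (u - T)) (v 0) (v' 0) (w' u)]

/-- Concatenation: nonexpanding in the paths, 1-Lipschitz in the time. -/
theorem dist_cat_le (hw : Lip w) (hw' : Lip w') (hv : Lip v) (hv' : Lip v')
    (h : w T = v 0) (h' : w' T' = v' 0) (hC : 0 ≤ C) (h1 : dist w w' ≤ C) (h2 : dist v v' ≤ C) :
    dist (cat T w v) (cat T' w' v') ≤ |T - T'| + C := by
  rw [BoundedContinuousFunction.dist_le (add_nonneg (abs_nonneg _) hC)]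
  intro u
  rcases le_total T T' with hT | hT
  · rw [abs_sub_comm, abs_of_nonneg (by linarith)]
    exact cat_aux hT hw hw' hv hv' h h' hC h1 h2 u
  · rw [abs_of_nonneg (by linarith), dist_comm]
    exact cat_aux hT hw' hw hv' hv h' h hC (by rwa [dist_comm]) (by rwa [dist_comm]) u

/-- The conjugate `p⁻¹ W p`. -/
noncomputable def cj (ℓ T : ℝ) (p : ℝ → M) (W : ℝ →ᵇ M) : ℝ →ᵇ M := mo (c2 ℓ T p p W)

/-- A track of time `ℓ` from `a` to `x₀`. -/
structure Trk (a x₀ : M) (ℓ : ℝ) (p : ℝ → M) : Prop where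
  lip : Lip p
  left : ∀ u ≤ 0, p u = a
  right : ∀ u, ℓ ≤ u → p u = x₀

namespace Trk

theorem at0 (h : Trk a x₀ ℓ p) : p 0 = a := h.left 0 le_rfl

theorem lipr (h : Trk a x₀ ℓ p) : Lip fun u => p (ℓ - u) :=
  h.lip.comp fun u v => by
    rw [show ℓ - u - (ℓ - v) = -(u - v) by ring, abs_neg]

end Trk

theorem cj_lip (hp : Trk a x₀ ℓ p) (hT : 0 ≤ T) (hW : W ∈ P a a T) : Lip (c2 ℓ T p p W) :=
  lip_c2 hp.lip hp.lip hW.1 hT (by rw [eq_left hW le_rfl, hp.at0])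
    (by rw [eq_right hW le_rfl, hp.at0])

theorem cj_mem (hp : Trk a x₀ ℓ p) (hℓ : 0 ≤ ℓ) (hT : 0 ≤ T) (hW : W ∈ P a a T) :
    cj ℓ T p W ∈ P x₀ x₀ (T + (ℓ + ℓ)) :=
  mo_c2_mem hp.lip hp.lip hW.1 hT hℓ hℓ (by rw [eq_left hW le_rfl, hp.at0])
    (by rw [eq_right hW le_rfl, hp.at0]) hp.right hp.right

theorem cj_one (hp : Trk a x₀ ℓ p) (hT : 0 ≤ T) (hW : W ∈ P a a T) {u : ℝ} (hu : u ≤ ℓ) :
    cj ℓ T p W u = p (ℓ - u) := by
  rw [cj, (cj_lip hp hT hW).mo_apply, c2_one hu]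

theorem cj_two (hp : Trk a x₀ ℓ p) (hT : 0 ≤ T) (hW : W ∈ P a a T) {u : ℝ} (hu : ℓ ≤ u)
    (hu' : u ≤ ℓ + T) : cj ℓ T p W u = W (u - ℓ) := by
  rw [cj, (cj_lip hp hT hW).mo_apply, c2_two (by rw [eq_left hW le_rfl, hp.at0]) hu hu']

theorem cj_three (hp : Trk a x₀ ℓ p) (hT : 0 ≤ T) (hW : W ∈ P a a T) {u : ℝ}
    (hu : ℓ + T ≤ u) : cj ℓ T p W u = p (u - ℓ - T) := by
  rw [cj, (cj_lip hp hT hW).mo_apply, c2_three (by rw [eq_left hW le_rfl, hp.at0]) hT
    (by rw [eq_right hW le_rfl, hp.at0]) hu]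

/-- The conjugate as a concatenation. -/
theorem cj_eq (hp : Trk a x₀ ℓ p) (hT : 0 ≤ T) (hW : W ∈ P a a T) :
    cj ℓ T p W = cat (ℓ + T) (cat ℓ (mo fun u => p (ℓ - u)) W) (mo p) := by
  have e1 : (mo (fun u => p (ℓ - u)) : ℝ →ᵇ M) ℓ = W 0 := by
    rw [hp.lipr.mo_apply, sub_self, hp.at0, eq_left hW le_rfl]
  have l1 : Lip (mo (fun u => p (ℓ - u)) : ℝ →ᵇ M) := fun u v => by
    rw [hp.lipr.mo_apply, hp.lipr.mo_apply]
    exact hp.lipr u v
  have l2 : Lip (cat ℓ (mo fun u => p (ℓ - u)) W) := fun u v => by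
    rw [cat_apply l1 hW.1 e1, cat_apply l1 hW.1 e1]
    exact lip_catf l1 hW.1 e1 u v
  have l3 : Lip (mo p : ℝ →ᵇ M) := fun u v => by
    rw [hp.lip.mo_apply, hp.lip.mo_apply]
    exact hp.lip u v
  have e2 : cat ℓ (mo fun u => p (ℓ - u)) W (ℓ + T) = (mo p : ℝ →ᵇ M) 0 := by
    rw [cat_apply l1 hW.1 e1, catf_right e1 (by linarith), hp.lip.mo_apply, hp.at0,
      eq_right hW (by linarith)]
  refine BoundedContinuousFunction.ext fun u => ?_
  rw [cat_apply l2 l3 e2]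
  rcases le_total u ℓ with h1 | h1
  · rw [cj_one hp hT hW h1, catf_left (by linarith), cat_apply l1 hW.1 e1, catf_left h1,
      hp.lipr.mo_apply]
  rcases le_total u (ℓ + T) with h2 | h2
  · rw [cj_two hp hT hW h1 h2, catf_left h2, cat_apply l1 hW.1 e1, catf_right e1 h1]
  · rw [cj_three hp hT hW h2, catf_right e2 h2, hp.lip.mo_apply]
    congr 1
    ring

/-- Conjugation: nonexpanding in the paths, 1-Lipschitz in the time. -/
theorem dist_cj_le {a' : M} (hp : Trk a x₀ ℓ p) (hp' : Trk a' x₀ ℓ p') (hT : 0 ≤ T)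
    (hT' : 0 ≤ T') (hW : W ∈ P a a T) (hW' : W' ∈ P a' a' T') (hC : 0 ≤ C)
    (h1 : ∀ u, dist (p u) (p' u) ≤ C) (h2 : dist W W' ≤ C) :
    dist (cj ℓ T p W) (cj ℓ T' p' W') ≤ |T - T'| + C := by
  have g : ∀ {a : M} {T : ℝ} {p : ℝ → M} {W : ℝ →ᵇ M}, Trk a x₀ ℓ p → 0 ≤ T → W ∈ P a a T →
      (mo (fun u => p (ℓ - u)) : ℝ →ᵇ M) ℓ = W 0 ∧ Lip (mo (fun u => p (ℓ - u)) : ℝ →ᵇ M) ∧
      Lip (cat ℓ (mo fun u => p (ℓ - u)) W) ∧ Lip (mo p : ℝ →ᵇ M) ∧
      cat ℓ (mo fun u => p (ℓ - u)) W (ℓ + T) = (mo p : ℝ →ᵇ M) 0 := by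
    intro a T p W hp hT hW
    have e1 : (mo (fun u => p (ℓ - u)) : ℝ →ᵇ M) ℓ = W 0 := by
      rw [hp.lipr.mo_apply, sub_self, hp.at0, eq_left hW le_rfl]
    have l1 : Lip (mo (fun u => p (ℓ - u)) : ℝ →ᵇ M) := fun u v => by
      rw [hp.lipr.mo_apply, hp.lipr.mo_apply]
      exact hp.lipr u v
    refine ⟨e1, l1, fun u v => ?_, fun u v => ?_, ?_⟩
    · rw [cat_apply l1 hW.1 e1, cat_apply l1 hW.1 e1]
      exact lip_catf l1 hW.1 e1 u v
    · rw [hp.lip.mo_apply, hp.lip.mo_apply]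
      exact hp.lip u v
    · rw [cat_apply l1 hW.1 e1, catf_right e1 (by linarith), hp.lip.mo_apply, hp.at0,
        eq_right hW (by linarith)]
  obtain ⟨a1, a2, a3, a4, a5⟩ := g hp hT hW
  obtain ⟨b1, b2, b3, b4, b5⟩ := g hp' hT' hW'
  rw [cj_eq hp hT hW, cj_eq hp' hT' hW']
  have h3 := dist_cat_le a3 b3 a4 b4 a5 b5 hC (by
    have := dist_cat_le a2 b2 hW.1 hW'.1 a1 b1 hC
      (dist_mo_mo_le hp.lipr hp'.lipr hC fun u => h1 _) h2
    rwa [sub_self, abs_zero, zero_add] at this) (dist_mo_mo_le hp.lip hp'.lip hC h1)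
  rwa [show ℓ + T - (ℓ + T') = T - T' by ring] at h3

/-- Powers: nonexpanding in the path, Lipschitz in the time. -/
theorem dist_pwr_le (ht : 0 ≤ t) (ht' : 0 ≤ t') (hw : w ∈ FL M t) (hw' : w' ∈ FL M t')
    (hC : 0 ≤ C) (h : dist w w' ≤ C) (m : ℕ) :
    dist (pwr t m w) (pwr t' m w') ≤ m * m * |t - t'| + C := by
  induction m with
  | zero =>
    rw [Nat.cast_zero, zero_mul, zero_mul, zero_add]
    refine (BoundedContinuousFunction.dist_le hC).2 fun u => ?_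
    exact (BoundedContinuousFunction.dist_coe_le_dist (f := w) (g := w') 0).trans h
  | succ m ih =>
    have h0 : 0 ≤ (m:ℝ) * m * |t - t'| := by positivity
    have h1 := dist_cat_le (C := m * m * |t - t'| + C) (pwr_mem ht hw m).1 (pwr_mem ht' hw' m).1
      hw.1 hw'.1 (pwr_join ht hw m) (pwr_join ht' hw' m) (by linarith) ih (by linarith)
    refine h1.trans ?_
    rw [show (m:ℝ) * t - m * t' = m * (t - t') by ring, abs_mul, abs_of_nonneg (Nat.cast_nonneg m)]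
    push_cast
    nlinarith [abs_nonneg (t - t'), mul_nonneg (Nat.cast_nonneg (α := ℝ) m) (abs_nonneg (t - t'))]

/-- Uniqueness of the power. -/
theorem eq_pwr {m : ℕ} (ht : 0 < t) (hv : v ∈ FL M t) (hW : W ∈ P (v 0) (v 0) (m * t))
    (h : ∀ j < m, ∀ u ∈ Icc (0:ℝ) t, W (j * t + u) = v u) : W = pwr t m v := by
  have hp := pwr_mem_P ht.le (mem_FL_iff.1 hv) m
  refine BoundedContinuousFunction.ext fun x => ?_
  rcases lt_or_ge x 0 with h1 | h1
  · rw [eq_left hW h1.le, eq_left hp h1.le]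
  rcases le_or_gt (m * t) x with h2 | h2
  · rw [eq_right hW h2, eq_right hp h2]
  have h3 : x / t < m := by rwa [div_lt_iff₀ ht]
  have h4 : 0 ≤ x / t := div_nonneg h1 ht.le
  set j := ⌊x / t⌋₊ with hj
  have h5 : j < m := (Nat.floor_lt h4).2 h3
  have h6 : (j : ℝ) * t ≤ x := by
    rw [← le_div_iff₀ ht]
    exact Nat.floor_le h4
  have h7 : x ≤ (j : ℝ) * t + t := by
    have := (Nat.lt_floor_add_one (x / t)).le
    rw [div_le_iff₀ ht] at this
    rw [← hj] at this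
    linarith
  have h8 : x = j * t + (x - j * t) := by ring
  rw [h8, h j h5 _ ⟨by linarith, by linarith⟩,
    pwr_apply ht.le hv m j h5 _ ⟨by linarith, by linarith⟩]

end Vale.Agent.P216.D907
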