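import Vale.Agent.P216.D907.PwEst

/-!
# P216-D, [E2], fibre step, powers (2): conjugation commutes with the powers up to a uniform homotopy

`uh_pwr`: `p⁻¹ wᵐ p ~ (p⁻¹ w p)ᵐ` for closed Moore paths `w` of time `t` and tracks `p = p i w` of
time `ℓ` from `w 0` to `x₀`; the modulus in `w` does not depend on `i`.
-/

set_option linter.all false

open Set BoundedContinuousFunction

namespace Vale.Agent.P216.D907

open Vale.Agent.P216.PS Vale.Agent.P216.MV337 Vale.Agent.P216.C337 Vale.Agent.P216.H774D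
open Vale.Agent.P216.H923E (UH)

variable {M : Type} [MetricSpace M] [CompactSpace M]
  {a b x₀ : M} {t t' T T' ℓ C σ σ' : ℝ} {w w' v v' e e' W W' : ℝ →ᵇ M} {p p' q : ℝ → M} {n : ℕ}

/-! ### `n` times `e`, then `w` -/

/-- `n` times `e`, then `w`. -/
noncomputable def lst (n : ℕ) (T : ℝ) (e w : ℝ →ᵇ M) : ℝ →ᵇ M := cat (n * T) (pwr T n e) w

theorem lst_mem (hT : 0 ≤ T) (ht : 0 ≤ t) (he : e ∈ P a a T) (hw : w ∈ P a a t) :
    lst n T e w ∈ P a a (n * T + t) :=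
  cat_mem (mul_nonneg (Nat.cast_nonneg n) hT) ht (pwr_mem_P hT he n) hw

theorem lst_join (hT : 0 ≤ T) (he : e ∈ P a a T) (hw : w ∈ P a a t) :
    pwr T n e (n * T) = w 0 := by
  rw [eq_right (pwr_mem_P hT he n) le_rfl, eq_left hw le_rfl]

theorem lst_left (hT : 0 ≤ T) (he : e ∈ P a a T) (hw : w ∈ P a a t) {j : ℕ} (hj : j < n) {u : ℝ}
    (hu : u ∈ Icc (0:ℝ) T) : lst n T e w (j * T + u) = e u := by
  have h3 : (j : ℝ) * T + u ≤ n * T := by
    have : ((j : ℝ) + 1) * T ≤ n * T := mul_le_mul_of_nonneg_right (by exact_mod_cast hj) hT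
    linarith [hu.2]
  have he' : e ∈ FL M T := P_subset_FL he
  rw [lst, cat_apply (pwr_mem hT he' n).1 hw.1 (lst_join hT he hw), catf_left h3,
    pwr_apply hT he' n j hj u hu]

theorem lst_right (hT : 0 ≤ T) (he : e ∈ P a a T) (hw : w ∈ P a a t) {u : ℝ} (hu : 0 ≤ u) :
    lst n T e w (n * T + u) = w u := by
  rw [lst, cat_apply (pwr_mem hT (P_subset_FL he) n).1 hw.1 (lst_join hT he hw),
    catf_right (lst_join hT he hw) (by linarith)]
  congr 1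
  ring

theorem dist_lst_le {a' : M} (hT : 0 ≤ T) (hT' : 0 ≤ T') (he : e ∈ P a a T)
    (he' : e' ∈ P a' a' T') (hw : w ∈ P a a t) (hw' : w' ∈ P a' a' t') (hC : 0 ≤ C)
    (h1 : dist e e' ≤ C) (h2 : dist w w' ≤ C) :
    dist (lst n T e w) (lst n T' e' w') ≤ (n + n * n) * |T - T'| + C := by
  have h3 := dist_pwr_le hT hT' (P_subset_FL he) (P_subset_FL he') hC h1 n
  have h0 : 0 ≤ (n:ℝ) * n * |T - T'| := by positivity
  refine (dist_cat_le (C := n * n * |T - T'| + C) (pwr_mem hT (P_subset_FL he) n).1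
    (pwr_mem hT' (P_subset_FL he') n).1 hw.1 hw'.1 (lst_join hT he hw) (lst_join hT' he' hw')
    (by linarith) h3 (by linarith)).trans ?_
  rw [show (n:ℝ) * T - n * T' = n * (T - T') by ring, abs_mul, abs_of_nonneg (Nat.cast_nonneg n)]
  linarith

/-! ### Excursions -/

theorem Trk.ex_lip (hp : Trk a x₀ ℓ p) (σ : ℝ) : Lip (ex ℓ σ p) := by
  refine hp.lip.comp fun u v => ?_
  refine (abs_min_sub_min_le_max _ _ _ _).trans (max_le (by simp) ?_)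
  rw [show ℓ - |u - ℓ| - (ℓ - |v - ℓ|) = |v - ℓ| - |u - ℓ| by ring]
  refine (abs_abs_sub_abs_le_abs_sub _ _).trans (le_of_eq ?_)
  rw [abs_sub_comm]
  congr 1
  ring

theorem Trk.ex_left (hp : Trk a x₀ ℓ p) (hℓ : 0 ≤ ℓ) (σ : ℝ) {u : ℝ} (hu : u ≤ 0) :
    ex ℓ σ p u = a := by
  refine hp.left _ ((min_le_right _ _).trans ?_)
  rw [abs_of_nonpos (by linarith)]
  linarith

theorem Trk.ex_right (hp : Trk a x₀ ℓ p) (hℓ : 0 ≤ ℓ) (σ : ℝ) {u : ℝ} (hu : ℓ + ℓ ≤ u) :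
    ex ℓ σ p u = a := by
  refine hp.left _ ((min_le_right _ _).trans ?_)
  rw [abs_of_nonneg (by linarith)]
  linarith

theorem Trk.mo_ex_mem (hp : Trk a x₀ ℓ p) (hℓ : 0 ≤ ℓ) (σ : ℝ) :
    mo (ex ℓ σ p) ∈ P a a (ℓ + ℓ) :=
  mo_mem (hp.ex_lip σ) (fun _ hu => hp.ex_left hℓ σ hu) fun _ hu => hp.ex_right hℓ σ hu

theorem Trk.dist_ex_le (hp : Trk a x₀ ℓ p) (σ σ' u : ℝ) :
    dist (ex ℓ σ p u) (ex ℓ σ' p u) ≤ |σ - σ'| := by
  refine (hp.lip _ _).trans ((abs_min_sub_min_le_max _ _ _ _).trans (max_le le_rfl ?_))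
  rw [sub_self, abs_zero]
  exact abs_nonneg _

/-- `w`, then an excursion along the track. -/
noncomputable def wex (ℓ t σ : ℝ) (p : ℝ → M) (w : ℝ →ᵇ M) : ℝ →ᵇ M := cat t w (mo (ex ℓ σ p))

theorem wex_join (hp : Trk a x₀ ℓ p) (hℓ : 0 ≤ ℓ) (hw : w ∈ P a a t) :
    w t = (mo (ex ℓ σ p) : ℝ →ᵇ M) 0 := by
  rw [eq_right hw le_rfl, eq_left (hp.mo_ex_mem hℓ σ) le_rfl]

theorem wex_mem (hp : Trk a x₀ ℓ p) (hℓ : 0 ≤ ℓ) (ht : 0 ≤ t) (hw : w ∈ P a a t) :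
    wex ℓ t σ p w ∈ P a a (t + (ℓ + ℓ)) :=
  cat_mem ht (by linarith) hw (hp.mo_ex_mem hℓ σ)

theorem wex_zero (hp : Trk a x₀ ℓ p) (hℓ : 0 ≤ ℓ) (hw : w ∈ P a a t) :
    wex ℓ t 0 p w = w := by
  refine BoundedContinuousFunction.ext fun u => ?_
  rw [wex, cat_apply hw.1 (hp.mo_ex_mem hℓ 0).1 (wex_join hp hℓ hw)]
  rcases le_total u t with h | h
  · rw [catf_left h]
  · rw [catf_right (wex_join hp hℓ hw) h, (hp.ex_lip 0).mo_apply, eq_right hw h]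
    exact hp.left _ (min_le_left _ _)

theorem wex_left (hp : Trk a x₀ ℓ p) (hℓ : 0 ≤ ℓ) (hw : w ∈ P a a t) {u : ℝ} (hu : u ≤ t) :
    wex ℓ t σ p w u = w u := by
  rw [wex, cat_apply hw.1 (hp.mo_ex_mem hℓ σ).1 (wex_join hp hℓ hw), catf_left hu]

theorem wex_right (hp : Trk a x₀ ℓ p) (hℓ : 0 ≤ ℓ) (hw : w ∈ P a a t) {u : ℝ} (hu : t ≤ u) :
    wex ℓ t σ p w u = p (min σ (ℓ - |u - t - ℓ|)) := by
  rw [wex, cat_apply hw.1 (hp.mo_ex_mem hℓ σ).1 (wex_join hp hℓ hw),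
    catf_right (wex_join hp hℓ hw) hu, (hp.ex_lip σ).mo_apply]
  rfl

theorem dist_wex_le {a' : M} (hp : Trk a x₀ ℓ p) (hp' : Trk a' x₀ ℓ p') (hℓ : 0 ≤ ℓ)
    (hw : w ∈ P a a t) (hw' : w' ∈ P a' a' t) (hC : 0 ≤ C) (h1 : dist w w' ≤ C)
    (h2 : ∀ u, dist (ex ℓ σ p u) (ex ℓ σ' p' u) ≤ C) :
    dist (wex ℓ t σ p w) (wex ℓ t σ' p' w') ≤ C := by
  have h := dist_cat_le hw.1 hw'.1 (hp.mo_ex_mem hℓ σ).1 (hp'.mo_ex_mem hℓ σ').1
    (wex_join hp hℓ hw) (wex_join hp' hℓ hw') hC h1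
    (dist_mo_mo_le (hp.ex_lip σ) (hp'.ex_lip σ') hC h2)
  rwa [sub_self, abs_zero, zero_add] at h

/-! ### The end of the homotopy -/

/-- `p⁻¹ (w p p⁻¹)ⁿ w p = (p⁻¹ w p)ⁿ⁺¹`. -/
theorem cj_lst_wex (n : ℕ) (ht : 0 < t) (hℓ : 0 ≤ ℓ) (hp : Trk a x₀ ℓ p) (hw : w ∈ P a a t) :
    cj ℓ (n * (t + (ℓ + ℓ)) + t) p (lst n (t + (ℓ + ℓ)) (wex ℓ t ℓ p w) w) =
      pwr (t + (ℓ + ℓ)) (n + 1) (cj ℓ t p w) := by
  have hT : 0 < t + (ℓ + ℓ) := by linarith
  have hnT : 0 ≤ (n:ℝ) * (t + (ℓ + ℓ)) := mul_nonneg (Nat.cast_nonneg n) hT.le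
  have hv := cj_mem hp hℓ ht.le hw
  have hv0 : cj ℓ t p w 0 = x₀ := eq_left hv le_rfl
  have he := wex_mem (σ := ℓ) hp hℓ ht.le hw
  have hL := lst_mem (n := n) hT.le ht.le he hw
  have hT' : 0 ≤ (n:ℝ) * (t + (ℓ + ℓ)) + t := by linarith
  refine eq_pwr hT (P_subset_FL hv) ?_ fun j hj u hu => ?_
  · rw [hv0]
    refine P_mono (le_of_eq ?_) (cj_mem hp hℓ hT' hL)
    push_cast
    ring
  have hjT : 0 ≤ (j:ℝ) * (t + (ℓ + ℓ)) := mul_nonneg (Nat.cast_nonneg j) hT.le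
  have hjn : (j:ℝ) * (t + (ℓ + ℓ)) ≤ n * (t + (ℓ + ℓ)) :=
    mul_le_mul_of_nonneg_right (by exact_mod_cast Nat.lt_succ_iff.1 hj) hT.le
  rcases le_total u ℓ with h1 | h1
  · -- the first part of the conjugate
    rw [cj_one hp ht.le hw h1]
    rcases Nat.eq_zero_or_pos j with rfl | hj0
    · rw [Nat.cast_zero, zero_mul, zero_add, cj_one hp hT' hL h1]
    · obtain ⟨i, rfl⟩ : ∃ i, j = i + 1 := ⟨j - 1, by omega⟩
      have hj1 : ((i + 1 : ℕ) : ℝ) * (t + (ℓ + ℓ)) = i * (t + (ℓ + ℓ)) + (t + (ℓ + ℓ)) := by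
        push_cast
        ring
      have hiT : 0 ≤ (i:ℝ) * (t + (ℓ + ℓ)) := mul_nonneg (Nat.cast_nonneg i) hT.le
      rw [cj_two hp hT' hL (by rw [hj1]; linarith [hu.1]) (by linarith),
        show ((i + 1 : ℕ) : ℝ) * (t + (ℓ + ℓ)) + u - ℓ =
          i * (t + (ℓ + ℓ)) + (t + (ℓ + ℓ) + u - ℓ) by rw [hj1]; ring,
        lst_left hT.le he hw (by omega) ⟨by linarith [hu.1], by linarith⟩,
        wex_right hp hℓ hw (by linarith [hu.1]),
        abs_of_nonneg (by linarith [hu.1]), min_eq_right (by linarith [hu.1])]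
      congr 1
      ring
  rcases le_total u (ℓ + t) with h2 | h2
  · -- the path
    rw [cj_two hp ht.le hw h1 h2, cj_two hp hT' hL (by linarith) (by linarith)]
    rcases Nat.lt_succ_iff_lt_or_eq.1 hj with hj' | rfl
    · rw [show (j : ℝ) * (t + (ℓ + ℓ)) + u - ℓ = j * (t + (ℓ + ℓ)) + (u - ℓ) by ring,
        lst_left hT.le he hw hj' ⟨by linarith, by linarith⟩, wex_left hp hℓ hw (by linarith)]
    · rw [show (j : ℝ) * (t + (ℓ + ℓ)) + u - ℓ = j * (t + (ℓ + ℓ)) + (u - ℓ) by ring,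
        lst_right hT.le he hw (by linarith)]
  · -- the last part
    rw [cj_three hp ht.le hw h2]
    rcases Nat.lt_succ_iff_lt_or_eq.1 hj with hj' | rfl
    · have hj2 : ((j:ℝ) + 1) * (t + (ℓ + ℓ)) ≤ n * (t + (ℓ + ℓ)) :=
        mul_le_mul_of_nonneg_right (by exact_mod_cast hj') hT.le
      rw [cj_two hp hT' hL (by linarith) (by linarith [hu.2]),
        show (j : ℝ) * (t + (ℓ + ℓ)) + u - ℓ = j * (t + (ℓ + ℓ)) + (u - ℓ) by ring,
        lst_left hT.le he hw hj' ⟨by linarith, by linarith [hu.2]⟩,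
        wex_right hp hℓ hw (by linarith), abs_of_nonpos (by linarith [hu.2]),
        min_eq_right (by linarith [hu.2])]
      congr 1
      ring
    · rw [cj_three hp hT' hL (by linarith)]
      congr 1
      ring

/-! ### The homotopy -/

section

variable {I : Type} {Z : I → Set (ℝ →ᵇ M)} {p : I → (ℝ →ᵇ M) → ℝ → M}

/-- **Conjugation commutes with the powers** up to a homotopy, uniformly. -/
theorem uh_pwr (ht : 0 < t) (hℓ : 0 ≤ ℓ) {m : ℕ} (hm : 1 ≤ m) (hZ : ∀ i, Z i ⊆ FL M t)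
    (hp : ∀ i, ∀ w ∈ Z i, Trk (w 0) x₀ ℓ (p i w))
    (hc : ∀ ε > 0, ∃ δ > 0, ∀ i, ∀ w ∈ Z i, ∀ w' ∈ Z i, dist w w' < δ →
      ∀ u, dist (p i w u) (p i w' u) < ε) :
    UH Z (fun _ => P x₀ x₀ (m * (t + (ℓ + ℓ))))
      (fun i w => cj ℓ (m * t) (p i w) (pwr t m w))
      (fun i w => pwr (t + (ℓ + ℓ)) m (cj ℓ t (p i w) w)) := by
  obtain ⟨n, rfl⟩ : ∃ n, m = n + 1 := ⟨m - 1, by omega⟩
  have hn : (0:ℝ) ≤ n := Nat.cast_nonneg n
  have hT : 0 < t + (ℓ + ℓ) := by linarith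
  -- the common modulus
  have hc' : ∀ ε > 0, ∃ δ > 0, ∀ i, ∀ w ∈ Z i, ∀ w' ∈ Z i, dist w w' < δ →
      dist w w' ≤ ε / 2 ∧ ∀ u, dist (p i w u) (p i w' u) ≤ ε / 2 := by
    intro ε hε
    obtain ⟨δ, hδ, h⟩ := hc (ε / 2) (half_pos hε)
    refine ⟨min δ (ε / 2), lt_min hδ (half_pos hε), fun i w hw w' hw' hd =>
      ⟨(hd.trans_le (min_le_right _ _)).le, fun u =>
        (h i w hw w' hw' (hd.trans_le (min_le_left _ _)) u).le⟩⟩
  have hP : ∀ i, ∀ w ∈ Z i, w ∈ P (w 0) (w 0) t := fun i w hw => mem_FL_iff.1 (hZ i hw)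
  -- first part: the waiting times grow
  have hA : UH Z (fun _ => P x₀ x₀ (((n + 1 : ℕ) : ℝ) * (t + (ℓ + ℓ))))
      (fun i w => cj ℓ (((n + 1 : ℕ) : ℝ) * t) (p i w) (pwr t (n + 1) w))
      (fun i w => cj ℓ (n * (t + (ℓ + ℓ)) + t) (p i w) (lst n (t + (ℓ + ℓ)) w w)) := by
    have hs0 : ∀ s ∈ Icc (0:ℝ) 1, 0 ≤ s * (ℓ + ℓ) ∧ s * (ℓ + ℓ) ≤ ℓ + ℓ := fun s hs =>
      ⟨mul_nonneg hs.1 (by linarith), by nlinarith [hs.2]⟩
    have hw' : ∀ s ∈ Icc (0:ℝ) 1, ∀ i, ∀ w ∈ Z i,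
        lst n (t + s * (ℓ + ℓ)) w w ∈ P (w 0) (w 0) (n * (t + s * (ℓ + ℓ)) + t) :=
      fun s hs i w hw => lst_mem (by linarith [(hs0 s hs).1]) ht.le
        (P_mono (by linarith [(hs0 s hs).1]) (hP i w hw)) (hP i w hw)
    have hTs : ∀ s ∈ Icc (0:ℝ) 1, 0 ≤ (n:ℝ) * (t + s * (ℓ + ℓ)) + t := fun s hs =>
      add_nonneg (mul_nonneg hn (by linarith [(hs0 s hs).1])) ht.le
    refine ⟨fun i s w => cj ℓ (n * (t + s * (ℓ + ℓ)) + t) (p i w)
      (lst n (t + s * (ℓ + ℓ)) w w), fun i s hs w hw => ?_, fun i w hw => ?_, fun i w hw => ?_,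
      fun ε hε => ?_, fun i ε hε => ?_⟩
    · refine P_mono ?_ (cj_mem (hp i w hw) hℓ (hTs s hs) (hw' s hs i w hw))
      have := mul_le_mul_of_nonneg_left (hs0 s hs).2 hn
      push_cast
      linarith
    · show cj ℓ (n * (t + 0 * (ℓ + ℓ)) + t) (p i w) (lst n (t + 0 * (ℓ + ℓ)) w w) = _
      rw [zero_mul, add_zero]
      show cj ℓ (n * t + t) (p i w) (pwr t (n + 1) w) = _
      congr 1
      push_cast
      ring
    · show cj ℓ (n * (t + 1 * (ℓ + ℓ)) + t) (p i w) (lst n (t + 1 * (ℓ + ℓ)) w w) = _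
      rw [one_mul]
    · obtain ⟨δ, hδ, h⟩ := hc' ε hε
      refine ⟨δ, hδ, fun i s hs w hw w' hw1 hd => ?_⟩
      obtain ⟨h1, h2⟩ := h i w hw w' hw1 hd
      have hs1 := hs0 s hs
      have h3 := dist_lst_le (n := n) (T := t + s * (ℓ + ℓ)) (T' := t + s * (ℓ + ℓ))
        (by linarith) (by linarith) (P_mono (by linarith) (hP i w hw))
        (P_mono (by linarith) (hP i w' hw1)) (hP i w hw) (hP i w' hw1) (half_pos hε).le h1 h1
      rw [sub_self, abs_zero, mul_zero, zero_add] at h3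
      have h4 := dist_cj_le (hp i w hw) (hp i w' hw1) (hTs s hs) (hTs s hs) (hw' s hs i w hw)
        (hw' s hs i w' hw1) (half_pos hε).le h2 h3
      rw [sub_self, abs_zero, zero_add] at h4
      linarith
    · -- continuity in the time
      set K : ℝ := (n + (n + n * n)) * (ℓ + ℓ) with hK
      have hK0 : 0 ≤ K := by positivity
      refine ⟨ε / (K + 1), by positivity, fun s hs s' hs' hd w hw => ?_⟩
      have hs1 := hs0 s hs
      have hs2 := hs0 s' hs'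
      have e1 : |t + s * (ℓ + ℓ) - (t + s' * (ℓ + ℓ))| = |s - s'| * (ℓ + ℓ) := by
        rw [show t + s * (ℓ + ℓ) - (t + s' * (ℓ + ℓ)) = (s - s') * (ℓ + ℓ) by ring, abs_mul,
          abs_of_nonneg (by linarith : 0 ≤ ℓ + ℓ)]
      have h3 := dist_lst_le (n := n) (T := t + s * (ℓ + ℓ)) (T' := t + s' * (ℓ + ℓ))
        (by linarith) (by linarith) (P_mono (by linarith) (hP i w hw))
        (P_mono (by linarith) (hP i w hw)) (hP i w hw) (hP i w hw) le_rfl (dist_self w).le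
        (dist_self w).le
      rw [e1, add_zero] at h3
      have h4 := dist_cj_le (hp i w hw) (hp i w hw) (hTs s hs) (hTs s' hs') (hw' s hs i w hw)
        (hw' s' hs' i w hw) (by positivity) (fun u => by rw [dist_self]; positivity) h3
      rw [show (n:ℝ) * (t + s * (ℓ + ℓ)) + t - (n * (t + s' * (ℓ + ℓ)) + t) =
        n * (t + s * (ℓ + ℓ) - (t + s' * (ℓ + ℓ))) by ring, abs_mul, abs_of_nonneg hn, e1] at h4
      refine h4.trans_lt ?_
      have h5 : |s - s'| * (K + 1) < ε := by rwa [lt_div_iff₀ (by positivity)] at hd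
      calc (n:ℝ) * (|s - s'| * (ℓ + ℓ)) + (n + n * n) * (|s - s'| * (ℓ + ℓ))
          = |s - s'| * K := by rw [hK]; ring
        _ ≤ |s - s'| * (K + 1) := mul_le_mul_of_nonneg_left (by linarith) (abs_nonneg _)
        _ < ε := h5
  -- second part: the excursions grow
  have hB : UH Z (fun _ => P x₀ x₀ (((n + 1 : ℕ) : ℝ) * (t + (ℓ + ℓ))))
      (fun i w => cj ℓ (n * (t + (ℓ + ℓ)) + t) (p i w) (lst n (t + (ℓ + ℓ)) w w))
      (fun i w => pwr (t + (ℓ + ℓ)) (n + 1) (cj ℓ t (p i w) w)) := by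
    have he : ∀ s, ∀ i, ∀ w ∈ Z i,
        wex ℓ t (s * ℓ) (p i w) w ∈ P (w 0) (w 0) (t + (ℓ + ℓ)) := fun s i w hw =>
      wex_mem (hp i w hw) hℓ ht.le (hP i w hw)
    have hL : ∀ s, ∀ i, ∀ w ∈ Z i, lst n (t + (ℓ + ℓ)) (wex ℓ t (s * ℓ) (p i w) w) w ∈
        P (w 0) (w 0) (n * (t + (ℓ + ℓ)) + t) := fun s i w hw =>
      lst_mem hT.le ht.le (he s i w hw) (hP i w hw)
    have hTs : 0 ≤ (n:ℝ) * (t + (ℓ + ℓ)) + t := by positivity
    refine ⟨fun i s w => cj ℓ (n * (t + (ℓ + ℓ)) + t) (p i w)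
      (lst n (t + (ℓ + ℓ)) (wex ℓ t (s * ℓ) (p i w) w) w), fun i s hs w hw => ?_, fun i w hw => ?_,
      fun i w hw => ?_, fun ε hε => ?_, fun i ε hε => ?_⟩
    · refine P_mono (le_of_eq ?_) (cj_mem (hp i w hw) hℓ hTs (hL s i w hw))
      push_cast
      ring
    · show cj ℓ (n * (t + (ℓ + ℓ)) + t) (p i w)
        (lst n (t + (ℓ + ℓ)) (wex ℓ t (0 * ℓ) (p i w) w) w) = _
      rw [zero_mul, wex_zero (hp i w hw) hℓ (hP i w hw)]
    · show cj ℓ (n * (t + (ℓ + ℓ)) + t) (p i w)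
        (lst n (t + (ℓ + ℓ)) (wex ℓ t (1 * ℓ) (p i w) w) w) = _
      rw [one_mul]
      exact cj_lst_wex n ht hℓ (hp i w hw) (hP i w hw)
    · obtain ⟨δ, hδ, h⟩ := hc' ε hε
      refine ⟨δ, hδ, fun i s hs w hw w' hw' hd => ?_⟩
      obtain ⟨h1, h2⟩ := h i w hw w' hw' hd
      have h5 := dist_wex_le (σ := s * ℓ) (σ' := s * ℓ) (hp i w hw) (hp i w' hw') hℓ (hP i w hw)
        (hP i w' hw') (half_pos hε).le h1 fun u => h2 _
      have h3 := dist_lst_le (n := n) hT.le hT.le (he s i w hw) (he s i w' hw') (hP i w hw)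
        (hP i w' hw') (half_pos hε).le h5 h1
      rw [sub_self, abs_zero, mul_zero, zero_add] at h3
      have h4 := dist_cj_le (hp i w hw) (hp i w' hw') hTs hTs (hL s i w hw)
        (hL s i w' hw') (half_pos hε).le h2 h3
      rw [sub_self, abs_zero, zero_add] at h4
      linarith
    · refine ⟨ε / (ℓ + 1), by positivity, fun s hs s' hs' hd w hw => ?_⟩
      have h0 : 0 ≤ |s - s'| * ℓ := by positivity
      have h5 := dist_wex_le (σ := s * ℓ) (σ' := s' * ℓ) (C := |s - s'| * ℓ) (hp i w hw)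
        (hp i w hw) hℓ (hP i w hw) (hP i w hw) h0 (by rw [dist_self]; exact h0) fun u => by
          refine ((hp i w hw).dist_ex_le _ _ u).trans (le_of_eq ?_)
          rw [← sub_mul, abs_mul, abs_of_nonneg hℓ]
      have h3 := dist_lst_le (n := n) hT.le hT.le (he s i w hw) (he s' i w hw) (hP i w hw)
        (hP i w hw) h0 h5 (by rw [dist_self]; exact h0)
      rw [sub_self, abs_zero, mul_zero, zero_add] at h3
      have h4 := dist_cj_le (hp i w hw) (hp i w hw) hTs hTs (hL s i w hw)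
        (hL s' i w hw) h0 (fun u => by rw [dist_self]; exact h0) h3
      rw [sub_self, abs_zero, zero_add] at h4
      refine h4.trans_lt ?_
      have h6 : |s - s'| * (ℓ + 1) < ε := by rwa [lt_div_iff₀ (by positivity)] at hd
      nlinarith [abs_nonneg (s - s')]
  exact hA.trans hB

end

end Vale.Agent.P216.D907
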